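import Vale.Agent.P153DK.Mom

/-!
Convergence in law of the height field in `H^{-s}(D)`.
-/

set_option autoImplicit false

namespace P153DK

open MeasureTheory ProbabilityTheory Filter Topology Set Metric Vale.Agent.P153.H212
open Vale.Agent.P153DH

theorem gau (m c w : ℝ) : (gaussianReal 0 w.toNNReal).map (fun x => m + c * x) =
    gaussianReal m (c ^ 2 * w).toNNReal := by
  have h1 : (fun x : ℝ => m + c * x) = (fun x => m + x) ∘ fun x => c * x := rfl
  rw [h1, ← Measure.map_map (measurable_const_add m) (measurable_const_mul c),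
    gaussianReal_map_const_mul, gaussianReal_map_const_add, mul_zero, zero_add,
    Real.toNNReal_mul (sq_nonneg c), Real.toNNReal_of_nonneg (sq_nonneg c)]

theorem marg {H : Type} [NormedAddCommGroup H] [InnerProductSpace ℝ H]
    {ν : Measure (StrongDual ℝ H)} {f : H} {w : ℝ}
    (h : ν.map (fun T => T f) = gaussianReal 0 w.toNNReal) (U : StrongDual ℝ H) (c : ℝ) :
    ν.map (fun T => (U + c • T) f) = gaussianReal (U f) (c ^ 2 * w).toNNReal := by
  have hm : Measurable fun T : StrongDual ℝ H => T f :=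
    (ContinuousLinearMap.apply ℝ ℝ f).continuous.measurable
  have h2 : Measurable fun x : ℝ => U f + c * x := by fun_prop
  rw [← gau, ← h, Measure.map_map h2 hm]
  rfl

theorem test_zero (D : Set ℂ) : TestOn D (fun _ => 0) :=
  ⟨contDiff_const, HasCompactSupport.zero, by
    have : tsupport (fun _ : ℂ => (0 : ℝ)) = ∅ := tsupport_eq_empty_iff.2 rfl
    rw [this]
    exact empty_subset _⟩

theorem harm_rep {H : Type} [NormedAddCommGroup H] [InnerProductSpace ℝ H] [CompleteSpace H]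
    {Φ : ℂ ≃ₜ ℂ} {u : ℂ → ℝ} (hu : IsHarm Φ u) {a : ℂ → H} (ha : Continuous a) {M : ℝ}
    (hM : ∀ x, ‖a x‖ ≤ M) {φ : ℂ → ℝ} (hφ : TestOn (dom Φ) φ) {f : H}
    (hf : ∀ x, inner ℝ (a x) f = φ x) :
    rz (∫ z in dom Φ, u z • a z) f = ∫ z, u z * φ z := by
  have ho : IsOpen (dom Φ) := Φ.isOpenMap _ isOpen_ball
  have hb : volume (dom Φ) < ⊤ :=
    (measure_mono (image_mono ball_subset_closedBall)).trans_lt
      ((isCompact_closedBall (0 : ℂ) 1).image Φ.continuous).measure_lt_top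
  have hc : ContinuousOn u (dom Φ) := fun z hz =>
    (hu.1 z hz).1.continuousAt.continuousWithinAt
  have hi : IntegrableOn (fun z => u z • a z) (dom Φ) := by
    have : IsFiniteMeasure (volume.restrict (dom Φ)) := isFiniteMeasure_restrict.2 hb.ne
    refine Integrable.of_bound ((hc.smul ha.continuousOn).aestronglyMeasurable ho.measurableSet) M
      ((ae_restrict_iff' ho.measurableSet).2 (ae_of_all _ fun z hz => ?_))
    rw [norm_smul, Real.norm_eq_abs]
    have h1 := mul_le_mul (hu.2.1 z hz) (hM z) (norm_nonneg _) zero_le_one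
    rwa [one_mul] at h1
  rw [rz_apply, real_inner_comm, ← rz_apply, ← (rz f).integral_comp_comm hi]
  simp only [map_smul, rz_apply, hf, smul_eq_mul]
  refine setIntegral_eq_integral_of_forall_compl_eq_zero fun z hz => ?_
  rw [image_eq_zero_of_notMem_tsupport fun h => hz (hφ.2.2 h), mul_zero]

theorem rz_sub {H : Type} [NormedAddCommGroup H] [InnerProductSpace ℝ H] [CompleteSpace H]
    {α : Type} [MeasurableSpace α] {P : Measure α} {W : α → H} (h1 : Integrable W P)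
    (h2 : Integrable (fun g => rz (W g)) P) (w : H) :
    rz (w - (1 : ℝ) • ∫ g, W g ∂P) = rz w - ∫ g, rz (W g) ∂P := by
  ext f
  rw [ContinuousLinearMap.sub_apply, ContinuousLinearMap.integral_apply h2, one_smul, rz_apply,
    rz_apply, inner_sub_right, ← integral_inner h1]
  simp only [rz_apply]

theorem aem {H : Type} [NormedAddCommGroup H] [InnerProductSpace ℝ H] {s : Set (ℤ × ℤ → ℤ)}
    (hp : IsProbabilityMeasure (uniformOn s)) (X : (ℤ × ℤ → ℤ) → StrongDual ℝ H) :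
    AEMeasurable X (uniformOn s) := (int_unif hp X).aemeasurable

theorem rz_sub' {H : Type} [NormedAddCommGroup H] [InnerProductSpace ℝ H] [CompleteSpace H]
    {s : Set (ℤ × ℤ → ℤ)} (hp : IsProbabilityMeasure (uniformOn s)) (W : (ℤ × ℤ → ℤ) → H) (w : H) :
    rz (w - (1 : ℝ) • ∫ g, W g ∂uniformOn s) = rz w - ∫ g, rz (W g) ∂uniformOn s :=
  rz_sub (int_unif hp _) (int_unif hp _) w

/-- **The theorem in `H^{-s}(D)`.** -/
theorem sob_of (hK : KIT) (hMo : MOMH) (hE : Existence) (hF : FieldTheorem) :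
    SobolevTheorem := by
  intro Φ s hs
  obtain ⟨k1, k2, a, M, ha, haM, hrep⟩ := hK s (dom Φ) hs
  have : CompleteSpace (H0 s (dom Φ)) := (Submodule.isClosed_topologicalClosure _).completeSpace_coe
  have : Fact ((2 : ENNReal) ≠ ⊤) := ⟨by simp⟩
  obtain ⟨u, hu, -, hlim⟩ := hF Φ
  let κ := {q : (ℂ → ℝ) × H0 s (dom Φ) // TestOn (dom Φ) q.1 ∧ Rep s q.1 q.2}
  let v : κ → H0 s (dom Φ) := fun q => q.1.2
  have hv : DenseRange v := by
    refine Dense.mono ?_ k2
    rintro f ⟨φ, h1, h2⟩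
    exact ⟨⟨(φ, f), h1, h2⟩, rfl⟩
  have hc0 : (0 : ℝ) < √(8 / Real.pi) := Real.sqrt_pos.2 (by positivity)
  have hc2 : √(8 / Real.pi) ^ 2 = 8 / Real.pi := Real.sq_sqrt (by positivity)
  have step : ∀ (δ : ℕ → ℝ) (N k : ℕ → ℕ) (p : ∀ n, ZMod (N n) → ℤ × ℤ)
      (S : ℕ → Finset (Finset (ℤ × ℤ))), Approx Φ δ N k p S →
      ∀ B : ∀ n, ZMod (N n) → Set ℤ, (∀ n, B n = arcs (k n) ∨ B n = free) →
      (∀ n, IsProbabilityMeasure (law (p n) (S n) (B n))) → ∀ t : ℝ, (t = 0 ∨ t = 1) →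
      ∀ m : κ → ℝ, (∀ (q : κ) (F : ℝ → ℝ), Continuous F → (∃ M, ∀ x, |F x| ≤ M) →
        Tendsto (fun n => ∫ h, F (fld (S n) (δ n) q.1.1 h -
          t * ∫ g, fld (S n) (δ n) q.1.1 g ∂law (p n) (S n) (B n)) ∂law (p n) (S n) (B n)) atTop
          (𝓝 (∫ x, F x ∂gaussianReal (m q) (8 / Real.pi * V (dom Φ) q.1.1).toNNReal))) →
      (∃ ν : Measure (Hm s (dom Φ)), IsProbabilityMeasure ν ∧ ∀ q : κ, ν.map (fun T => T (v q)) =
        gaussianReal (m q) (8 / Real.pi * V (dom Φ) q.1.1).toNNReal) ∧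
      ∀ (ν : Measure (Hm s (dom Φ))) (U : Hm s (dom Φ)), IsGFF ν → (∀ q, U (v q) = m q) →
        ∀ F : Hm s (dom Φ) → ℝ, Continuous F → (∃ M, ∀ x, |F x| ≤ M) →
        Tendsto (fun n => ∫ h, F (rz (wf (S n) (δ n) a h -
          t • ∫ g, wf (S n) (δ n) a g ∂law (p n) (S n) (B n))) ∂law (p n) (S n) (B n)) atTop
          (𝓝 (∫ T, F (U + √(8 / Real.pi) • T) ∂ν)) := by
    intro δ N k p S hA B hB hP t ht m hm
    obtain ⟨⟨R, hR⟩, C, hC, hmom⟩ := hMo Φ δ N k p S hA
    have i1 : ∀ n (G : (ℤ × ℤ → ℤ) → ℝ), Integrable G (law (p n) (S n) (B n)) :=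
      fun n G => int_unif (hP n) G
    have i2 : ∀ n (G : (ℤ × ℤ → ℤ) → H0 s (dom Φ)), Integrable G (law (p n) (S n) (B n)) :=
      fun n G => int_unif (hP n) G
    obtain ⟨m1, m2⟩ := moms (fun n => law (p n) (S n) (B n)) hP i1 i2 hC hR
      (fun n b M hb hbM => hmom n (B n) (hB n) _ b M hb hbM) ha haM t ht
    obtain ⟨c1, c2⟩ := conv_dual (fun n => law (p n) (S n) (B n)) hP i1 _ (fun n => i2 n _) m1 m2
      v hv (fun q => gaussianReal (m q) (8 / Real.pi * V (dom Φ) q.1.1).toNNReal)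
      (fun q => inferInstance) (fun q F a1 a2 => by
        refine (hm q F a1 a2).congr fun n => ?_
        have e := fun h => inner_wf (S n) (δ n) ha h fun x => hrep x _ _ q.2.1 q.2.2
        simp only [inner_sub_right, inner_smul_right, ← integral_inner (i2 n _), v, e])
    refine ⟨c1, fun ν U hν hU => c2 ν (fun T => U + √(8 / Real.pi) • T) hν.1 (by fun_prop)
      fun q => ?_⟩
    rw [marg (hν.2 _ _ q.2.1 q.2.2), hc2, hU]
  have hd : Tendsto (fun n : ℕ => 1 / ((n : ℝ) + 1)) atTop (𝓝 0) :=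
    tendsto_one_div_add_atTop_nhds_zero_nat
  obtain ⟨N0, k0, p0, S0, hA0⟩ := hE Φ _ (fun n => by positivity) hd
  obtain ⟨⟨ν1, n1, n2⟩, -⟩ := step _ N0 k0 p0 S0 hA0 (fun _ => free) (fun _ => Or.inr rfl)
    (hlim _ N0 k0 p0 S0 hA0 _ (test_zero _)).2.2.2.1 0 (Or.inl rfl) (fun _ => 0)
    (fun q F a1 a2 => by
      simpa only [zero_mul, sub_zero] using (hlim _ N0 k0 p0 S0 hA0 _ q.2.1).2.2.2.2.2 F a1 a2)
  have cs : Continuous fun T : Hm s (dom Φ) => (0 : Hm s (dom Φ)) + (√(8 / Real.pi))⁻¹ • T := by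
    fun_prop
  have hG : IsGFF (ν1.map fun T => (0 : Hm s (dom Φ)) + (√(8 / Real.pi))⁻¹ • T) := by
    refine ⟨Measure.isProbabilityMeasure_map cs.measurable.aemeasurable, fun φ f h1 h2 => ?_⟩
    rw [Measure.map_map (meas_ev f) cs.measurable]
    have h3 := marg (n2 ⟨(φ, f), h1, h2⟩) 0 (√(8 / Real.pi))⁻¹
    have h4 : (√(8 / Real.pi))⁻¹ ^ 2 * (8 / Real.pi * V (dom Φ) φ) = V (dom Φ) φ := by
      rw [inv_pow, hc2]
      field_simp
    rw [h4] at h3
    exact h3
  refine ⟨k1, _, hG, fun ν' h' => ?_, u, rz (∫ z in dom Φ, u z • a z), hu,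
    fun φ f h1 h2 => harm_rep hu ha haM h1 fun x => hrep x φ f h1 h2, ?_⟩
  · have := h'.1
    have := hG.1
    exact uniq_dual v hv fun q => (h'.2 _ _ q.2.1 q.2.2).trans (hG.2 _ _ q.2.1 q.2.2).symm
  intro δ N k p S hA
  have P1 := (hlim δ N k p S hA _ (test_zero _)).2.2.1.1
  have P2 := (hlim δ N k p S hA _ (test_zero _)).2.2.2.1
  refine ⟨fun n h => rz (wf (S n) (δ n) a h), fun n h φ f h1 h2 => ?_,
    ⟨fun n => ⟨P1 n, aem (P1 n) _⟩, fun F a1 a2 => ?_⟩,
    ⟨fun n => ⟨P1 n, aem (P1 n) _⟩, fun F a1 a2 => ?_⟩,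
    ⟨fun n => ⟨P2 n, aem (P2 n) _⟩, fun F a1 a2 => ?_⟩⟩
  · rw [rz_apply]
    exact inner_wf (S n) (δ n) ha h fun x => hrep x φ f h1 h2
  · have h1 := (step δ N k p S hA (fun n => arcs (k n)) (fun _ => Or.inl rfl) P1 1 (Or.inr rfl)
      (fun _ => 0) (fun q F a1 a2 => by
        simpa only [one_mul] using (hlim δ N k p S hA _ q.2.1).2.2.1.2.2 F a1 a2)).2
      _ 0 hG (fun _ => rfl) F a1 a2
    simp only [zero_add (√(8 / Real.pi) • _)] at h1
    refine h1.congr fun n => ?_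
    refine integral_congr_ae (ae_of_all _ fun h => ?_)
    exact congrArg F (rz_sub' (P1 n) _ _)
  · have h1 := (step δ N k p S hA (fun n => arcs (k n)) (fun _ => Or.inl rfl) P1 0 (Or.inl rfl)
      (fun q => ∫ z, u z * q.1.1 z) (fun q F a1 a2 => by
        obtain ⟨-, b1, b2, -⟩ := hlim δ N k p S hA _ q.2.1
        have b3 := shift _ P1 _ (fun n => (int_unif (P1 n) _).aemeasurable) _ b1 b2.2.2 F a1 a2
        rw [gaussianReal_map_add_const, zero_add] at b3
        simpa only [zero_mul, sub_zero, sub_add_cancel] using b3)).2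
      _ (rz (∫ z in dom Φ, u z • a z)) hG
      (fun q => harm_rep hu ha haM q.2.1 fun x => hrep x _ _ q.2.1 q.2.2) F a1 a2
    simpa only [zero_smul, sub_zero] using h1
  · have h1 := (step δ N k p S hA (fun _ => free) (fun _ => Or.inr rfl) P2 0 (Or.inl rfl)
      (fun _ => 0) (fun q F a1 a2 => by
        simpa only [zero_mul, sub_zero] using (hlim δ N k p S hA _ q.2.1).2.2.2.2.2 F a1 a2)).2
      _ 0 hG (fun _ => rfl) F a1 a2
    simp only [zero_add (√(8 / Real.pi) • _)] at h1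
    simpa only [zero_smul, sub_zero] using h1

end P153DK
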