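import Vale.Agent.P153DI.Hil

/-!
Convergence in law in the dual of a Hilbert space; shifts and centring.
-/

set_option autoImplicit false

namespace P153DK

open MeasureTheory ProbabilityTheory Filter Topology Set Metric

/-- Convergence in law is stable under convergent deterministic shifts. -/
theorem shift {α : Type*} [MeasurableSpace α] (P : ℕ → Measure α)
    (hP : ∀ n, IsProbabilityMeasure (P n)) (Z : ℕ → α → ℝ) (hZ : ∀ n, AEMeasurable (Z n) (P n))
    (γ : Measure ℝ) [IsProbabilityMeasure γ] {c : ℕ → ℝ} {c0 : ℝ} (hc : Tendsto c atTop (𝓝 c0))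
    (h : ∀ F : ℝ → ℝ, Continuous F → (∃ M, ∀ x, |F x| ≤ M) →
      Tendsto (fun n => ∫ x, F (Z n x) ∂P n) atTop (𝓝 (∫ x, F x ∂γ)))
    (F : ℝ → ℝ) (hF : Continuous F) (hM : ∃ M, ∀ x, |F x| ≤ M) :
    Tendsto (fun n => ∫ x, F (Z n x + c n) ∂P n) atTop (𝓝 (∫ x, F x ∂γ.map (· + c0))) := by
  let m : ℕ → ProbabilityMeasure ℝ := fun n =>
    ⟨(P n).map (Z n), by have := hP n; exact Measure.isProbabilityMeasure_map (hZ n)⟩
  let l : ProbabilityMeasure ℝ := ⟨γ, inferInstance⟩
  have ha : ∀ r : ℝ, Measurable fun x : ℝ => x + r := fun r => measurable_id.add_const r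
  have h1 : Tendsto m atTop (𝓝 l) := by
    refine ProbabilityMeasure.tendsto_iff_forall_integral_tendsto.2 fun G => ?_
    refine (h G G.continuous ⟨‖G‖, fun x => G.norm_coe_le_norm x⟩).congr fun n => ?_
    exact (integral_map (hZ n) G.continuous.aestronglyMeasurable).symm
  have h2 : Tendsto (fun n => (m n).map (ha (c n)).aemeasurable) atTop
      (𝓝 (l.map (ha c0).aemeasurable)) := by
    refine ProbabilityMeasure.tendsto_of_tendsto_charFun fun t => ?_
    simp only [ProbabilityMeasure.toMeasure_map, charFun_map_add_const]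
    refine (ProbabilityMeasure.tendsto_iff_tendsto_charFun.1 h1 t).mul ?_
    have h3 : Continuous fun r : ℝ => Complex.exp ((inner ℝ r t : ℝ) * Complex.I) := by fun_prop
    exact (h3.tendsto c0).comp hc
  refine (ProbabilityMeasure.tendsto_iff_forall_integral_tendsto.1 h2
    (P153DI.bcf F hF hM)).congr fun n => ?_
  rw [ProbabilityMeasure.toMeasure_map]
  have e : ∫ x, F x ∂((P n).map (Z n)).map (· + c n) = ∫ x, F (Z n x + c n) ∂P n := by
    have c1 : Continuous fun x : ℝ => F (x + c n) := by fun_prop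
    rw [integral_map (ha _).aemeasurable hF.aestronglyMeasurable,
      integral_map (hZ n) c1.aestronglyMeasurable]
  exact e

variable {H : Type*} [NormedAddCommGroup H] [InnerProductSpace ℝ H] [CompleteSpace H]

/-- The second moment of a centred variable. -/
theorem cen_le {α : Type*} [MeasurableSpace α] (P : Measure α) [IsProbabilityMeasure P]
    (hR : ∀ G : α → ℝ, Integrable G P) (Y : α → H) :
    ∫ x, ‖Y x - ∫ y, Y y ∂P‖ ^ 2 ∂P ≤ 4 * ∫ x, ‖Y x‖ ^ 2 ∂P := by
  set m := ∫ x, ‖Y x‖ ∂P with hm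
  have h1 : ‖∫ y, Y y ∂P‖ ≤ m := norm_integral_le_integral_norm Y
  have h2 : m ^ 2 ≤ ∫ x, ‖Y x‖ ^ 2 ∂P := by
    have h3 : 0 ≤ ∫ x, (‖Y x‖ ^ 2 - (2 * m * ‖Y x‖ - m ^ 2)) ∂P :=
      integral_nonneg fun x => by
        show (0 : ℝ) ≤ ‖Y x‖ ^ 2 - (2 * m * ‖Y x‖ - m ^ 2)
        nlinarith [sq_nonneg (‖Y x‖ - m)]
    rw [integral_sub (hR _) (hR _), integral_sub (hR _) (hR _), integral_const_mul,
      integral_const, probReal_univ, one_smul, ← hm] at h3
    nlinarith
  have h4 : ∫ x, ‖Y x - ∫ y, Y y ∂P‖ ^ 2 ∂P ≤ ∫ x, (2 * ‖Y x‖ ^ 2 + 2 * m ^ 2) ∂P := by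
    refine integral_mono (hR _) (hR _) fun x => ?_
    have h5 : ‖Y x - ∫ y, Y y ∂P‖ ≤ ‖Y x‖ + m := (norm_sub_le _ _).trans (by linarith)
    have h6 := pow_le_pow_left₀ (norm_nonneg _) h5 2
    show ‖Y x - ∫ y, Y y ∂P‖ ^ 2 ≤ 2 * ‖Y x‖ ^ 2 + 2 * m ^ 2
    nlinarith [sq_nonneg (‖Y x‖ - m)]
  rw [integral_add (hR _) (hR _), integral_const_mul, integral_const, probReal_univ,
    one_smul] at h4
  linarith

/-- A compact set is close to a finite-dimensional subspace. -/
theorem fin_near {K : Set H} (hK : IsCompact K) {η : ℝ} (hη : 0 < η) :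
    ∃ (F : Submodule ℝ H) (Q : H →L[ℝ] H), FiniteDimensional ℝ F ∧ (∀ y, Q y ∈ F) ∧
      ∀ y ∈ K, ‖y - Q y‖ ≤ η := by
  obtain ⟨t, ht, hc⟩ := Metric.totallyBounded_iff.1 hK.totallyBounded η hη
  have := FiniteDimensional.span_of_finite ℝ ht
  refine ⟨Submodule.span ℝ t, (Submodule.span ℝ t).starProjection, this,
    fun y => Submodule.starProjection_apply_mem _ y, fun y hy => ?_⟩
  obtain ⟨z, hz, hyz⟩ := mem_iUnion₂.1 (hc hy)
  rw [Submodule.starProjection_minimal]
  refine le_trans (ciInf_le ⟨0, Set.forall_mem_range.2 fun _ => norm_nonneg _⟩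
    ⟨z, Submodule.subset_span hz⟩) ?_
  rw [mem_ball, dist_eq_norm] at hyz
  exact hyz.le

/-- The Riesz map. -/
noncomputable def rz (w : H) : StrongDual ℝ H := InnerProductSpace.toDual ℝ H w

theorem rz_apply (w f : H) : rz w f = inner ℝ f w := by
  rw [rz, InnerProductSpace.toDual_apply_apply, real_inner_comm]

theorem cont_rz : Continuous (rz : H → StrongDual ℝ H) :=
  (InnerProductSpace.toDual ℝ H).continuous

/-- The inverse of the Riesz map. -/
noncomputable def zr (T : StrongDual ℝ H) : H := (InnerProductSpace.toDual ℝ H).symm T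

theorem cont_zr : Continuous (zr : StrongDual ℝ H → H) :=
  (InnerProductSpace.toDual ℝ H).symm.continuous

theorem rz_zr (T : StrongDual ℝ H) : rz (zr T) = T :=
  (InnerProductSpace.toDual ℝ H).apply_symm_apply T

theorem inner_zr (T : StrongDual ℝ H) (f : H) : inner ℝ f (zr T) = T f := by
  rw [← rz_apply, rz_zr]

theorem meas_ev (f : H) : Measurable fun T : StrongDual ℝ H => T f :=
  (ContinuousLinearMap.apply ℝ ℝ f).continuous.measurable

theorem cont_in (f : H) : Continuous fun w : H => inner ℝ f w :=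
  continuous_const.inner continuous_id

variable [SecondCountableTopology H]

/-- Uniqueness of the law in the dual. -/
theorem uniq_dual {κ : Type*} (v : κ → H) (hv : DenseRange v) {ν ν' : Measure (StrongDual ℝ H)}
    [IsFiniteMeasure ν] [IsFiniteMeasure ν']
    (h : ∀ i, ν.map (fun T => T (v i)) = ν'.map (fun T => T (v i))) : ν = ν' := by
  borelize H
  have e : ∀ (m : Measure (StrongDual ℝ H)) (f : H),
      (m.map zr).map (fun w => inner ℝ f w) = m.map (fun T => T f) := fun m f => by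
    rw [Measure.map_map (cont_in _).measurable cont_zr.measurable]
    congr 1
    funext T
    exact inner_zr T f
  have h1 : ν.map zr = ν'.map zr := by
    refine P153DI.uniq hv ?_
    rintro _ ⟨i, rfl⟩
    rw [e, e, h i]
  have e2 : ∀ m : Measure (StrongDual ℝ H), (m.map zr).map rz = m := fun m => by
    rw [Measure.map_map cont_rz.measurable cont_zr.measurable]
    have : (rz ∘ zr : StrongDual ℝ H → StrongDual ℝ H) = id := funext rz_zr
    rw [this, Measure.map_id]
  rw [← e2 ν, h1, e2]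

/-- Convergence in law in the dual. -/
theorem conv_dual {α : Type*} [MeasurableSpace α] (P : ℕ → Measure α)
    (hP : ∀ n, IsProbabilityMeasure (P n)) (hR : ∀ n (G : α → ℝ), Integrable G (P n))
    (W : ℕ → α → H) (hW : ∀ n, Integrable (W n) (P n))
    (hC : ∃ C : ℝ, ∀ n, ∫ h, ‖W n h‖ ^ 2 ∂P n ≤ C)
    (hF : ∀ ε > 0, ∃ F : Submodule ℝ H, FiniteDimensional ℝ F ∧
      ∀ n, ∫ h, infDist (W n h) (F : Set H) ^ 2 ∂P n ≤ ε)
    {κ : Type*} (v : κ → H) (hv : DenseRange v) (γ : κ → Measure ℝ)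
    (hγ : ∀ i, IsProbabilityMeasure (γ i))
    (hlim : ∀ i (F : ℝ → ℝ), Continuous F → (∃ M, ∀ x, |F x| ≤ M) →
      Tendsto (fun n => ∫ h, F (inner ℝ (v i) (W n h)) ∂P n) atTop (𝓝 (∫ x, F x ∂γ i))) :
    (∃ ν : Measure (StrongDual ℝ H), IsProbabilityMeasure ν ∧
      ∀ i, ν.map (fun T => T (v i)) = γ i) ∧
    ∀ (ν : Measure (StrongDual ℝ H)) (Y : StrongDual ℝ H → StrongDual ℝ H),
      IsProbabilityMeasure ν → Continuous Y → (∀ i, ν.map (fun T => Y T (v i)) = γ i) →
      ∀ F : StrongDual ℝ H → ℝ, Continuous F → (∃ M, ∀ x, |F x| ≤ M) →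
        Tendsto (fun n => ∫ h, F (rz (W n h)) ∂P n) atTop (𝓝 (∫ T, F (Y T) ∂ν)) := by
  borelize H
  obtain ⟨-, ⟨ν, h1, h2⟩, h3⟩ := P153DI.hil_rv (α := fun _ => α) P hP W
    (fun n => (hW n).aemeasurable) (fun n => hR n _) hC hF v hv γ hγ hlim
  refine ⟨⟨ν.map rz, Measure.isProbabilityMeasure_map cont_rz.measurable.aemeasurable,
    fun i => ?_⟩, fun m Y a1 a2 a3 F a4 a5 => ?_⟩
  · rw [Measure.map_map (meas_ev _) cont_rz.measurable, ← h2 i]
    congr 1
    funext w
    exact rz_apply w (v i)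
  · have c1 : Continuous fun T => zr (Y T) := cont_zr.comp a2
    have h4 := h3 (m.map fun T => zr (Y T))
      (Measure.isProbabilityMeasure_map c1.measurable.aemeasurable) (fun i => by
        rw [Measure.map_map (cont_in _).measurable c1.measurable,
          ← a3 i]
        congr 1
        funext T
        exact inner_zr (Y T) (v i)) (fun w => F (rz w)) (a4.comp cont_rz)
      (by obtain ⟨M, hM⟩ := a5; exact ⟨M, fun w => hM _⟩)
    have c2 : Continuous fun w : H => F (rz w) := a4.comp cont_rz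
    rw [integral_map c1.measurable.aemeasurable c2.aestronglyMeasurable] at h4
    simpa only [rz_zr] using h4

end P153DK
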