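import Vale.Agent.P153.H212.Def

/-!
Elementary facts on the interpolated heights and on their laws.
-/

set_option autoImplicit false

namespace P153DK

open MeasureTheory ProbabilityTheory Filter Topology Set Vale.Agent.P153.H212

theorem cont_hat : Continuous hat := by
  unfold hat
  fun_prop

theorem hat_ne {z : ℂ} (h : hat z ≠ 0) : |z.re - z.im / √3| < 1 ∧ |2 * z.im / √3| < 1 := by
  by_contra hn
  apply h
  unfold hat
  refine max_eq_left ?_
  rw [not_and_or, not_lt, not_lt] at hn
  rcases hn with h1 | h1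
  · linarith [le_max_left |z.re - z.im / √3| (max |2 * z.im / √3| |z.re + z.im / √3|)]
  · linarith [le_max_right |z.re - z.im / √3| (max |2 * z.im / √3| |z.re + z.im / √3|),
      le_max_left |2 * z.im / √3| |z.re + z.im / √3|]

theorem pt_re (v : ℤ × ℤ) : (pt v).re = v.1 + v.2 / 2 := by
  simp [pt]
  ring

theorem pt_im (v : ℤ × ℤ) : (pt v).im = √3 / 2 * v.2 := by
  simp [pt]
  ring

theorem cont_ext (h : ℤ × ℤ → ℤ) : Continuous (ext h) := by
  have h3 : (0 : ℝ) < √3 := by positivity
  let A : ℂ → ℝ := fun z => z.re - z.im / √3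
  let B : ℂ → ℝ := fun z => 2 * z.im / √3
  have hA : Continuous A := by fun_prop
  have hB : Continuous B := by fun_prop
  have eA : ∀ z v, A (z - pt v) = A z - v.1 := fun z v => by
    simp only [A, Complex.sub_re, Complex.sub_im, pt_re, pt_im]
    field_simp
    ring
  have eB : ∀ z v, B (z - pt v) = B z - v.2 := fun z v => by
    simp only [B, Complex.sub_im, pt_im]
    field_simp
  refine continuous_finsum (f := fun (v : ℤ × ℤ) z => (h v : ℝ) * hat (z - pt v))
    (fun v => continuous_const.mul (cont_hat.comp (continuous_id.sub continuous_const))) ?_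
  intro x
  have hU : {z | |A z - A x| < 1 ∧ |B z - B x| < 1} ∈ 𝓝 x := by
    refine IsOpen.mem_nhds ?_ (by simp)
    exact (isOpen_lt (hA.sub continuous_const).abs continuous_const).inter
      (isOpen_lt (hB.sub continuous_const).abs continuous_const)
  refine ⟨_, hU, ?_⟩
  refine ((finite_Icc ⌊A x - 2⌋ ⌈A x + 2⌉).prod (finite_Icc ⌊B x - 2⌋ ⌈B x + 2⌉)).subset ?_
  rintro v ⟨z, hz, hz1, hz2⟩
  have h1 : hat (z - pt v) ≠ 0 := fun h0 => hz (by simp [h0])
  obtain ⟨a1, a2⟩ := hat_ne h1
  have b1 : |A z - v.1| < 1 := by rw [← eA]; exact a1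
  have b2 : |B z - v.2| < 1 := by rw [← eB]; exact a2
  rw [abs_lt] at b1 b2 hz1 hz2
  refine ⟨⟨?_, ?_⟩, ⟨?_, ?_⟩⟩
  · exact Int.floor_le_iff.2 (by linarith)
  · exact Int.le_ceil_iff.2 (by linarith)
  · exact Int.floor_le_iff.2 (by linarith)
  · exact Int.le_ceil_iff.2 (by linarith)

theorem cpt_region (δ : ℝ) (S : Finset (Finset (ℤ × ℤ))) : IsCompact (region δ S) :=
  S.finite_toSet.isCompact_biUnion fun t _ =>
    (t.finite_toSet.image _).isCompact_convexHull ℝ

/-- Every function is integrable for the uniform law on a finite set. -/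
theorem int_unif {s : Set (ℤ × ℤ → ℤ)} (hp : IsProbabilityMeasure (uniformOn s)) {E : Type*}
    [NormedAddCommGroup E] (G : (ℤ × ℤ → ℤ) → E) : Integrable G (uniformOn s) := by
  have hs : s.Finite := finite_of_uniformOn_ne_zero (t := univ) (by simp)
  have h1 : ∀ᵐ x ∂uniformOn s, x ∈ s := ae_cond_mem hs.measurableSet
  rw [← Measure.restrict_eq_self_of_ae_mem h1]
  have h2 : IntegrableOn G (⋃ y ∈ s, {y}) (uniformOn s) :=
    (integrableOn_finite_biUnion hs).2 fun y _ => integrableOn_singleton (by simp) (by simp)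
  rwa [biUnion_of_singleton] at h2

end P153DK
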