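import Vale.Agent.P153DK.Lat
import Vale.Agent.P153DK.Abs
import Vale.Agent.P153DH.Props

/-!
The height field as a random element of a Hilbert space.
-/

set_option autoImplicit false

namespace P153DK

open MeasureTheory ProbabilityTheory Filter Topology Set Metric Vale.Agent.P153.H212

variable {H : Type} [NormedAddCommGroup H] [InnerProductSpace ℝ H] [CompleteSpace H]

/-- The field tested against the kernel `a`. -/
noncomputable def wf (S : Finset (Finset (ℤ × ℤ))) (δ : ℝ) (a : ℂ → H) (h : ℤ × ℤ → ℤ) : H :=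
  ∫ z in region δ S, ext h (z / δ) • a z

omit [CompleteSpace H] in
theorem int_wf (S : Finset (Finset (ℤ × ℤ))) (δ : ℝ) {a : ℂ → H} (ha : Continuous a)
    (h : ℤ × ℤ → ℤ) : IntegrableOn (fun z => ext h (z / δ) • a z) (region δ S) := by
  refine ContinuousOn.integrableOn_compact (cpt_region δ S) (Continuous.continuousOn ?_)
  exact ((cont_ext h).comp (continuous_id.div_const _)).smul ha

theorem map_wf (S : Finset (Finset (ℤ × ℤ))) (δ : ℝ) {a : ℂ → H} (ha : Continuous a)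
    (h : ℤ × ℤ → ℤ) {E : Type} [NormedAddCommGroup E] [NormedSpace ℝ E] [CompleteSpace E]
    (L : H →L[ℝ] E) : L (wf S δ a h) = ∫ z in region δ S, ext h (z / δ) • L (a z) := by
  rw [wf, ← L.integral_comp_comm (int_wf S δ ha h)]
  simp only [map_smul]

theorem inner_wf (S : Finset (Finset (ℤ × ℤ))) (δ : ℝ) {a : ℂ → H} (ha : Continuous a)
    (h : ℤ × ℤ → ℤ) {φ : ℂ → ℝ} {f : H} (hf : ∀ x, inner ℝ (a x) f = φ x) :
    inner ℝ f (wf S δ a h) = fld S δ φ h := by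
  have h1 := map_wf S δ ha h (rz f)
  rw [rz_apply, real_inner_comm] at h1
  rw [h1, fld]
  simp only [rz_apply, hf, smul_eq_mul]

theorem sub_wf (S : Finset (Finset (ℤ × ℤ))) (δ : ℝ) {a : ℂ → H} (ha : Continuous a)
    (h : ℤ × ℤ → ℤ) (Q : H →L[ℝ] H) :
    wf S δ a h - Q (wf S δ a h) = wf S δ (fun z => a z - Q (a z)) h :=
  map_wf S δ ha h (ContinuousLinearMap.id ℝ H - Q)

/-- The moment conditions for the field and for the centred field. -/
theorem moms {δ : ℕ → ℝ} {S : ℕ → Finset (Finset (ℤ × ℤ))} (P : ℕ → Measure (ℤ × ℤ → ℤ))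
    (hP : ∀ n, IsProbabilityMeasure (P n)) (hR : ∀ n (G : (ℤ × ℤ → ℤ) → ℝ), Integrable G (P n))
    (hH : ∀ n (G : (ℤ × ℤ → ℤ) → H), Integrable G (P n)) {R C : ℝ} (hC : 0 ≤ C)
    (hreg : ∀ n, region (δ n) (S n) ⊆ closedBall 0 R)
    (hm : ∀ (n : ℕ) (b : ℂ → H) (M : ℝ), Continuous b →
      (∀ z ∈ region (δ n) (S n), ‖b z‖ ≤ M) →
      ∫ h, ‖wf (S n) (δ n) b h‖ ^ 2 ∂P n ≤ C * M ^ 2)
    {a : ℂ → H} (ha : Continuous a) {M : ℝ} (hM : ∀ x, ‖a x‖ ≤ M) (t : ℝ) (ht : t = 0 ∨ t = 1) :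
    (∃ C : ℝ, ∀ n, ∫ h, ‖wf (S n) (δ n) a h - t • ∫ g, wf (S n) (δ n) a g ∂P n‖ ^ 2 ∂P n ≤ C) ∧
    ∀ ε > 0, ∃ F : Submodule ℝ H, FiniteDimensional ℝ F ∧ ∀ n,
      ∫ h, infDist (wf (S n) (δ n) a h - t • ∫ g, wf (S n) (δ n) a g ∂P n) (F : Set H) ^ 2 ∂P n
        ≤ ε := by
  have key : ∀ (n : ℕ) (b : ℂ → H) (M : ℝ), Continuous b →
      (∀ z ∈ region (δ n) (S n), ‖b z‖ ≤ M) →
      ∫ h, ‖wf (S n) (δ n) b h - t • ∫ g, wf (S n) (δ n) b g ∂P n‖ ^ 2 ∂P n ≤ 4 * C * M ^ 2 := by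
    intro n b M hb hbM
    have := hP n
    have h1 := hm n b M hb hbM
    have h2 : 0 ≤ C * M ^ 2 := by positivity
    rcases ht with rfl | rfl
    · simp only [zero_smul, sub_zero]
      linarith
    · simp only [one_smul]
      linarith [cen_le (P n) (hR n) (wf (S n) (δ n) b)]
  refine ⟨⟨_, fun n => key n a M ha fun z _ => hM z⟩, fun ε hε => ?_⟩
  obtain ⟨η, hη, hηε⟩ : ∃ η : ℝ, 0 < η ∧ 4 * C * η ^ 2 ≤ ε := by
    refine ⟨min 1 (ε / (4 * C + 1)), by positivity, ?_⟩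
    have h1 : min 1 (ε / (4 * C + 1)) ≤ 1 := min_le_left _ _
    have h2 : min 1 (ε / (4 * C + 1)) ≤ ε / (4 * C + 1) := min_le_right _ _
    have h3 : 0 < min 1 (ε / (4 * C + 1)) := by positivity
    rw [le_div_iff₀ (by positivity)] at h2
    set x := min 1 (ε / (4 * C + 1))
    have h4 : x ^ 2 ≤ x := by nlinarith
    nlinarith
  obtain ⟨F, Q, hF, hQ, hnear⟩ := fin_near ((isCompact_closedBall (0 : ℂ) R).image ha) hη
  refine ⟨F, hF, fun n => ?_⟩
  have hb : Continuous fun z => a z - Q (a z) := ha.sub (Q.continuous.comp ha)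
  refine le_trans (integral_mono (hR n _) (hR n _) fun h => ?_)
    ((key n _ η hb fun z hz => hnear _ ⟨z, hreg n hz, rfl⟩).trans hηε)
  refine pow_le_pow_left₀ infDist_nonneg ?_ 2
  refine (infDist_le_dist_of_mem
    (hQ (wf (S n) (δ n) a h - t • ∫ g, wf (S n) (δ n) a g ∂P n))).trans (le_of_eq ?_)
  rw [dist_eq_norm]
  congr 1
  simp only [← sub_wf (S n) (δ n) ha _ Q]
  rw [integral_sub (hH n _) (hH n _), Q.integral_comp_comm (hH n _), map_sub, map_smul, smul_sub]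
  abel

end P153DK
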